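import Vale.Agent.P309.Stopping.Reduce

/-! Every learner with `O(d^2)` bits needs `Ω(d log (1/ε))` noiseless samples, also when it may
stop early and share randomness over time. -/

namespace Vale.Agent.Results.P309.SharpLowerBound

open MeasureTheory ProbabilityTheory
open Vale.Agent.P309

/-- For every `C₀`, a learner on the noiseless stream whose states number at most `2 ^ (C₀ d^2)`
and which succeeds at accuracy `ε` needs a horizon of at least `c d log (1/ε)` samples: first in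
the plain model, then for learners with a stopping decision at every index, an output rule that
may depend on the index of stopping, and all rules depending on a shared seed. -/
theorem result : (∀ C₀ : ℝ, 0 < C₀ → ∃ c : ℝ, 0 < c ∧ ∃ ε₀ : ℝ, 0 < ε₀ ∧ ∃ d₀ : ℕ, ∀ d : ℕ, d₀ ≤ d →
    ∀ N T : ℕ, (N:ℝ) ≤ 2 ^ (C₀ * (d:ℝ) ^ 2) →
    ∀ (init : Fin N → ℝ) (step : ℕ → Fin N → EuclideanSpace ℝ (Fin d) → ℝ → Fin N → ℝ)
      (out : Fin N → Measure (EuclideanSpace ℝ (Fin d))),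
    (∀ v, 0 ≤ init v) → ∑ v, init v = 1 →
    (∀ t w x y v, 0 ≤ step t w x y v) → (∀ t w x y, ∑ v, step t w x y v = 1) →
    (∀ t w v, Measurable fun p : EuclideanSpace ℝ (Fin d) × ℝ => step t w p.1 p.2 v) →
    (∀ v, IsProbabilityMeasure (out v)) →
    ∀ ε : ℝ, 0 < ε → ε ≤ ε₀ → 2 / 3 ≤ successProb init step out T ε →
    c * (d:ℝ) * Real.log (1 / ε) ≤ (T:ℝ)) ∧
  (∀ C₀ : ℝ, 0 < C₀ → ∃ c : ℝ, 0 < c ∧ ∃ ε₀ : ℝ, 0 < ε₀ ∧ ∃ d₀ : ℕ, ∀ d : ℕ, d₀ ≤ d →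
    ∀ N T : ℕ, (N:ℝ) ≤ 2 ^ (C₀ * (d:ℝ) ^ 2) →
    ∀ (Ω : Type) [MeasurableSpace Ω] (μ : Measure Ω) [IsProbabilityMeasure μ]
      (init : Ω → Fin N × Bool → ℝ)
      (step : Ω → ℕ → Fin N → EuclideanSpace ℝ (Fin d) → ℝ → Fin N × Bool → ℝ)
      (out : Ω → ℕ → Fin N → Measure (EuclideanSpace ℝ (Fin d))),
    (∀ ω q, 0 ≤ init ω q) → (∀ ω, ∑ q, init ω q = 1) →
    (∀ ω t w x y q, 0 ≤ step ω t w x y q) → (∀ ω t w x y, ∑ q, step ω t w x y q = 1) →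
    (∀ ω t w q, Measurable fun p : EuclideanSpace ℝ (Fin d) × ℝ => step ω t w p.1 p.2 q) →
    (∀ ω t v, IsProbabilityMeasure (out ω t v)) →
    ∀ ε : ℝ, 0 < ε → ε ≤ ε₀ →
    2 / 3 ≤ ∫ ω, stoppingSuccess (init ω) (step ω) (out ω) T ε ∂μ →
    c * (d:ℝ) * Real.log (1 / ε) ≤ (T:ℝ)) :=
  ⟨Vale.Agent.P309.Sharp.sharp_bound fun _ h => Vale.Agent.P309.Sharp.step h,
    Vale.Agent.P309.Stopping.stopping_bound⟩

end Vale.Agent.Results.P309.SharpLowerBound
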